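import Vale.Agent.Helper10.Closure

namespace Vale.Agent.Helper10

variable {G α : Type} [Group G] [DecidableEq G]

/-- the value of a word when every letter whose value lies outside `S` is replaced by
its representative -/
def evalS (f : α → G) (rep : G → G) (S : Finset G) (w : List α) : G :=
  (w.map (fun c => if f c ∈ S then f c else rep (f c))).prod

theorem evalS_nil (f : α → G) (rep : G → G) (S : Finset G) : evalS f rep S [] = 1 := rfl

theorem evalS_snoc (f : α → G) (rep : G → G) (S : Finset G) (w : List α) (c : α) :
    evalS f rep S (w ++ [c]) = evalS f rep S w * (if f c ∈ S then f c else rep (f c)) := by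
  simp [evalS]

theorem evalS_key (N : G → Prop) (hN1 : N 1) (hNmul : ∀ x y, N x → N y → N (x * y))
    (hNconj : ∀ x g, N x → N (g⁻¹ * x * g)) (hNcomm : ∀ x y, N x → N y → x * y = y * x)
    (f : α → G) (rep : G → G) (hrep : ∀ g, N (g * (rep g)⁻¹))
    (S : Finset G) (g : G) (hg : g ∉ S) (w : List α) :
    evalS f rep (insert g S) w
        = evalS f rep {g} w * (evalS f rep ∅ w)⁻¹ * evalS f rep S w ∧
      N ((evalS f rep ∅ w)⁻¹ * evalS f rep S w) := by
  induction w using List.reverseRecOn with
  | nil => simp [evalS_nil, hN1]
  | append_singleton w c ih =>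
    obtain ⟨ih1, ih2⟩ := ih
    rw [evalS_snoc, evalS_snoc, evalS_snoc, evalS_snoc, ih1]
    set a := evalS f rep {g} w
    set e := evalS f rep ∅ w
    set b := evalS f rep S w
    set h := f c
    set p := rep h
    have hn : N (h * p⁻¹) := hrep h
    have h0 : (if h ∈ (∅ : Finset G) then h else p) = p := by simp
    rw [h0]
    by_cases h1 : h = g
    · have h2 : h ∉ S := by rw [h1]; exact hg
      have e1 : (if h ∈ insert g S then h else p) = h := by simp [h1]
      have e2 : (if h ∈ ({g} : Finset G) then h else p) = h := by simp [h1]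
      have e3 : (if h ∈ S then h else p) = p := by simp [h2]
      rw [e1, e2, e3]
      constructor
      · have hc : (e⁻¹ * b) * (h * p⁻¹) = (h * p⁻¹) * (e⁻¹ * b) := hNcomm _ _ ih2 hn
        calc a * e⁻¹ * b * h = a * ((e⁻¹ * b) * (h * p⁻¹)) * p := by group
          _ = a * ((h * p⁻¹) * (e⁻¹ * b)) * p := by rw [hc]
          _ = a * h * (e * p)⁻¹ * (b * p) := by group
      · have : (e * p)⁻¹ * (b * p) = p⁻¹ * (e⁻¹ * b) * p := by group
        rw [this]
        exact hNconj _ _ ih2
    · by_cases h2 : h ∈ S
      · have e1 : (if h ∈ insert g S then h else p) = h := by simp [h2]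
        have e2 : (if h ∈ ({g} : Finset G) then h else p) = p := by simp [h1]
        have e3 : (if h ∈ S then h else p) = h := by simp [h2]
        rw [e1, e2, e3]
        constructor
        · group
        · have : (e * p)⁻¹ * (b * h) = p⁻¹ * ((e⁻¹ * b) * (h * p⁻¹)) * p := by group
          rw [this]
          exact hNconj _ _ (hNmul _ _ ih2 hn)
      · have e1 : (if h ∈ insert g S then h else p) = p := by simp [h1, h2]
        have e2 : (if h ∈ ({g} : Finset G) then h else p) = p := by simp [h1]
        have e3 : (if h ∈ S then h else p) = p := by simp [h2]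
        rw [e1, e2, e3]
        constructor
        · group
        · have : (e * p)⁻¹ * (b * p) = p⁻¹ * (e⁻¹ * b) * p := by group
          rw [this]
          exact hNconj _ _ ih2

/-- Reduction to the words in which a single value is kept: if `N` is a commutative
normal part of `G`, containing `g * (rep g)⁻¹` for every `g`, then the languages of `f`
are Boolean combinations of the languages of the one-value morphisms. -/
theorem reduce_main [Finite G] (N : G → Prop) (hN1 : N 1)
    (hNmul : ∀ x y, N x → N y → N (x * y))
    (hNconj : ∀ x g, N x → N (g⁻¹ * x * g)) (hNcomm : ∀ x y, N x → N y → x * y = y * x)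
    (f : α → G) (rep : G → G) (hrep : ∀ g, N (g * (rep g)⁻¹))
    (hone : ∀ g x, HasGSH 1 (fun w : List α => evalS f rep {g} w = x))
    (hzero : ∀ x, HasGSH 1 (fun w : List α => evalS f rep ∅ w = x)) :
    ∀ (S : Finset G) (x : G), HasGSH 1 (fun w : List α => evalS f rep S w = x) := by
  intro S
  induction S using Finset.induction_on with
  | empty => exact hzero
  | insert g S hg ih =>
    intro x
    have h1 : HasGSH 1 (fun w : List α => ∃ t : G × G × G,
        t.1 * t.2.1⁻¹ * t.2.2 = x ∧ evalS f rep {g} w = t.1 ∧ evalS f rep ∅ w = t.2.1 ∧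
          evalS f rep S w = t.2.2) :=
      HasGSH.exists_ _ (fun t => (HasGSH.const 1 _).and
        ((hone g t.1).and ((hzero t.2.1).and (ih t.2.2))))
    refine h1.congr (fun w => ?_)
    have key := (evalS_key N hN1 hNmul hNconj hNcomm f rep hrep S g hg w).1
    constructor
    · rintro ⟨⟨a, e, b⟩, ht, h2, h3, h4⟩
      simp only at ht h2 h3 h4
      rw [key, h2, h3, h4, ht]
    · intro hx
      exact ⟨(evalS f rep {g} w, evalS f rep ∅ w, evalS f rep S w), by rw [← hx, key], rfl, rfl,
        rfl⟩

theorem evalS_univ [Fintype G] (f : α → G) (rep : G → G) (w : List α) :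
    evalS f rep Finset.univ w = (w.map f).prod := by
  simp [evalS]

end Vale.Agent.Helper10
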