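import Vale.Agent.Helper10.Grading
import Vale.Agent.Helper10.Reduce

namespace Vale.Agent.Helper10

open Equiv

theorem run_act {α P : Type} (Y : α → Perm P) (w : List α) :
    ∀ y : P, run (fun y c => (Y c)⁻¹ y) y w = ((w.map Y).prod)⁻¹ y := by
  induction w with
  | nil => intro y; simp
  | cons c w ih =>
    intro y
    rw [run_cons, ih]
    simp [mul_inv_rev]

theorem prod_eq_iff_run {α P : Type} (Y : α → Perm P) (w : List α) (x : Perm P) :
    (w.map Y).prod = x ↔ ∀ y : P, run (fun y c => (Y c)⁻¹ y) y w = x⁻¹ y := by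
  constructor
  · intro h y
    rw [run_act, h]
  · intro h
    have h1 : ((w.map Y).prod)⁻¹ = x⁻¹ := by
      ext y
      rw [← run_act, h y]
    exact inv_injective h1

/-- the three-cycle used for the letters of degree one -/
def sg : Perm (Fin 4) := c[0, 1, 2]

/-- the reference three-cycle outside the powers of `sg` -/
def gst : Perm (Fin 4) := c[0, 1, 3]

/-- the reference involution -/
def xst : Perm (Fin 4) := c[2, 3] * c[0, 1]

def valA : Fin 4 → Perm (Fin 4) := ![1, sg, sg⁻¹, gst]

def valB : Fin 4 → Perm (Fin 4) := ![1, sg, sg⁻¹, xst]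

def rkA : Fin 4 → ℕ := ![2, 1, 1, 0]

def hA : Fin 4 → ℤ := ![0, 0, 1, 0]

def sA (r : ℕ) (k : Fin 4) : ℤ := if r = 1 then (![0, -1, 1, 0] : Fin 4 → ℤ) k else 0

theorem factA : ∀ (q k : Fin 4),
    rkA q ≤ rkA (if q = 0 then 0 else (valA k)⁻¹ q) ∧
    (rkA (if q = 0 then 0 else (valA k)⁻¹ q) = rkA q →
      hA (if q = 0 then 0 else (valA k)⁻¹ q) = hA q + sA (rkA q) k) := by
  decide

theorem factA3 : ∀ (q q' : Fin 4), rkA q = rkA q' → hA q = hA q' → q = q' := by
  decide

theorem langA {α : Type} [Finite α] (Y : α → Perm (Fin 4))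
    (hY : ∀ c, ∃ k : Fin 4, Y c = valA k) (x : Perm (Fin 4)) :
    HasGSH 1 (fun w : List α => (w.map Y).prod = x) := by
  choose tp htp using hY
  have hcf : CounterFree (absorb (fun (y : Fin 4) (c : α) => (Y c)⁻¹ y) 0) := by
    refine cf_of_grading _ rkA hA (fun r c => sA r (tp c)) ?_ ?_ factA3
    · intro q c
      have := (factA q (tp c)).1
      rw [← htp c] at this
      exact this
    · intro q c
      have := (factA q (tp c)).2
      rw [← htp c] at this
      exact this
  have h1 : HasGSH 1 (fun w : List α =>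
      ∀ y : Fin 4, run (fun y c => (Y c)⁻¹ y) y w = x⁻¹ y) :=
    HasGSH.forall_ _ (fun y => one_base _ 0 hcf y (x⁻¹ y))
  exact h1.congr (fun w => (prod_eq_iff_run Y w x).symm)

end Vale.Agent.Helper10
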