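import Vale.Agent.Helper10.A4a

namespace Vale.Agent.Helper10

open Equiv

theorem HasGSH.imp_const {α : Type} {h : ℕ} (c : Prop) (p : List α → Prop)
    (hp : c → HasGSH h p) : HasGSH h (fun w => c → p w) := by
  by_cases hc : c
  · exact (hp hc).congr (fun w => by simp [hc])
  · exact (HasGSH.true_ h).congr (fun w => by simp [hc])

/-- the six pairs of points, a pair and its complement being three apart -/
def edge : Fin 4 → Fin 4 → Fin 6 :=
  ![![0, 0, 1, 2], ![0, 0, 5, 4], ![1, 5, 0, 3], ![2, 4, 3, 0]]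

/-- passing to the complementary pair -/
def oppb (ε : Bool) (y : Fin 6) : Fin 6 := if ε then y + 3 else y

/-- the transitions of the six-state automaton, by letter type -/
def d6 : Fin 6 → Fin 4 → Fin 6 :=
  ![![0, 4, 2, 3], ![1, 2, 3, 1], ![2, 0, 1, 2], ![3, 1, 5, 0], ![4, 5, 0, 4], ![5, 3, 4, 5]]

def rk6 : Fin 6 → ℕ := ![1, 0, 0, 0, 0, 0]

def h6 : Fin 6 → ℤ := ![0, 4, 5, 3, 1, 2]

def s6 (r : ℕ) (k : Fin 4) : ℤ := if r = 0 then (![0, 1, -1, 0] : Fin 4 → ℤ) k else 0

theorem factB : ∀ (q : Fin 6) (k : Fin 4),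
    rk6 q ≤ rk6 (if q = 0 then 0 else d6 q k) ∧
    (rk6 (if q = 0 then 0 else d6 q k) = rk6 q →
      h6 (if q = 0 then 0 else d6 q k) = h6 q + s6 (rk6 q) k) := by
  decide

theorem factB3 : ∀ (q q' : Fin 6), rk6 q = rk6 q' → h6 q = h6 q' → q = q' := by
  decide

theorem factB_step : ∀ (k : Fin 4) (ε : Bool) (a b : Fin 4), a ≠ b →
    d6 (oppb ε (edge a b)) k =
      oppb (xor ε (decide (k ≠ 0))) (edge ((valB k)⁻¹ a) ((valB k)⁻¹ b)) := by
  decide

theorem factB_inj : ∀ (z : Perm (Fin 4)) (ε0 ε : Bool),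
    (∀ a b : Fin 4, a ≠ b → oppb ε0 (edge (z a) (z b)) = oppb ε (edge a b)) → z = 1 := by
  decide

theorem claimB {α : Type} (Y : α → Perm (Fin 4)) (tp : α → Fin 4)
    (htp : ∀ c, Y c = valB (tp c)) (w : List α) :
    ∃ ε : Bool, ∀ a b : Fin 4, a ≠ b →
      run (fun y c => d6 y (tp c)) (edge a b) w =
        oppb ε (edge (((w.map Y).prod)⁻¹ a) (((w.map Y).prod)⁻¹ b)) := by
  induction w using List.reverseRecOn with
  | nil => exact ⟨false, fun a b _ => by simp [oppb]⟩
  | append_singleton w c ih =>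
    obtain ⟨ε, hε⟩ := ih
    refine ⟨xor ε (decide (tp c ≠ 0)), fun a b hab => ?_⟩
    rw [run_append, hε a b hab]
    have hne : ((w.map Y).prod)⁻¹ a ≠ ((w.map Y).prod)⁻¹ b :=
      fun h => hab ((Equiv.injective _) h)
    have := factB_step (tp c) ε _ _ hne
    rw [← htp c] at this
    simp only [run_cons, run_nil]
    rw [this]
    simp [mul_inv_rev]

theorem langB {α : Type} [Finite α] (Y : α → Perm (Fin 4))
    (hY : ∀ c, ∃ k : Fin 4, Y c = valB k) (x : Perm (Fin 4)) :
    HasGSH 1 (fun w : List α => (w.map Y).prod = x) := by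
  choose tp htp using hY
  have hcf : CounterFree (absorb (fun (y : Fin 6) (c : α) => d6 y (tp c)) 0) := by
    refine cf_of_grading _ rk6 h6 (fun r c => s6 r (tp c)) ?_ ?_ factB3
    · intro q c
      exact (factB q (tp c)).1
    · intro q c
      exact (factB q (tp c)).2
  have h1 : HasGSH 1 (fun w : List α => ∃ ε : Bool, ∀ a b : Fin 4, a ≠ b →
      run (fun y c => d6 y (tp c)) (edge a b) w = oppb ε (edge (x⁻¹ a) (x⁻¹ b))) :=
    HasGSH.exists_ _ (fun ε => HasGSH.forall_ _ (fun a => HasGSH.forall_ _ (fun b =>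
      HasGSH.imp_const _ _ (fun _ => one_base _ 0 hcf _ _))))
  refine h1.congr (fun w => ?_)
  obtain ⟨ε0, h0⟩ := claimB Y tp htp w
  constructor
  · rintro ⟨ε, hε⟩
    have hz : ((w.map Y).prod)⁻¹ * x = 1 := by
      apply factB_inj _ ε0 ε
      intro a b hab
      have hab' : x a ≠ x b := fun h => hab ((Equiv.injective _) h)
      have e1 := h0 (x a) (x b) hab'
      have e2 := hε (x a) (x b) hab'
      rw [e1] at e2
      simpa using e2
    have : x = (w.map Y).prod := by
      have h2 := congrArg (fun t => (w.map Y).prod * t) hz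
      simpa [mul_assoc] using h2
    exact this.symm
  · intro hx
    refine ⟨ε0, fun a b hab => ?_⟩
    rw [h0 a b hab, hx]

end Vale.Agent.Helper10
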