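import Vale.Agent.Helper10.A4b

namespace Vale.Agent.Helper10

open Equiv

/-- the element of the four-group sending `3` to `i` -/
def vOf : Fin 4 → Perm (Fin 4) :=
  ![c[0, 3] * c[1, 2], c[1, 3] * c[0, 2], c[2, 3] * c[0, 1], 1]

/-- membership in the four-group -/
def NV (y : Perm (Fin 4)) : Prop := ∃ i : Fin 4, y = vOf i

/-- the representative, fixing the point `3`, of the coset of `g` -/
def repA (g : Perm (Fin 4)) : Perm (Fin 4) := (vOf (g 3))⁻¹ * g

theorem vOf_three : vOf 3 = 1 := by decide

theorem vOf_mul : ∀ i j : Fin 4, ∃ k : Fin 4, vOf i * vOf j = vOf k := by decide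

theorem vOf_comm : ∀ i j : Fin 4, vOf i * vOf j = vOf j * vOf i := by decide

theorem vOf_conj : ∀ (i : Fin 4) (g : Perm (Fin 4)), ∃ k : Fin 4, g⁻¹ * vOf i * g = vOf k := by
  decide

theorem NV_one : NV 1 := ⟨3, vOf_three.symm⟩

theorem NV_mul : ∀ x y, NV x → NV y → NV (x * y) := by
  rintro x y ⟨i, rfl⟩ ⟨j, rfl⟩
  exact vOf_mul i j

theorem NV_comm : ∀ x y, NV x → NV y → x * y = y * x := by
  rintro x y ⟨i, rfl⟩ ⟨j, rfl⟩
  exact vOf_comm i j

theorem NV_conj : ∀ x g, NV x → NV (g⁻¹ * x * g) := by
  rintro x g ⟨i, rfl⟩
  exact vOf_conj i g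

theorem rep_NV (g : Perm (Fin 4)) : NV (g * (repA g)⁻¹) :=
  ⟨g 3, by simp [repA]⟩

theorem factRep : ∀ g : Perm (Fin 4), Perm.sign g = 1 →
    (repA g = 1 ∨ repA g = sg ∨ repA g = sg⁻¹) := by
  decide

theorem factConj : ∀ g : Perm (Fin 4), Perm.sign g = 1 →
    ∃ π ∈ ([1, c[0, 1], c[0, 2], c[1, 2], sg, sg⁻¹] : List (Perm (Fin 4))),
      (π * sg * π⁻¹ = sg ∨ π * sg * π⁻¹ = sg⁻¹) ∧
      ((∃ k : Fin 4, π * g * π⁻¹ = valA k) ∨ (∃ k : Fin 4, π * g * π⁻¹ = valB k)) := by
  decide

theorem prod_conj {α G : Type} [Group G] (π : G) (v : α → G) (w : List α) :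
    (w.map (fun c => π * v c * π⁻¹)).prod = π * (w.map v).prod * π⁻¹ := by
  induction w with
  | nil => simp
  | cons c w ih =>
    simp only [List.map_cons, List.prod_cons, ih]
    group

/-- every language recognised by a morphism into the even permutations of four points
has star height at most one -/
theorem a4_perm {α : Type} [Finite α] (f : α → Perm (Fin 4))
    (hf : ∀ c, Perm.sign (f c) = 1) (x : Perm (Fin 4)) :
    HasGSH 1 (fun w : List α => (w.map f).prod = x) := by
  have hrepval : ∀ c, repA (f c) = 1 ∨ repA (f c) = sg ∨ repA (f c) = sg⁻¹ :=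
    fun c => factRep _ (hf c)
  have hzero : ∀ x, HasGSH 1 (fun w : List α => evalS f repA ∅ w = x) := by
    intro x
    have e : ∀ w : List α, evalS f repA ∅ w = (w.map (fun c => repA (f c))).prod := by
      intro w
      simp [evalS]
    refine (langA (fun c => repA (f c)) ?_ x).congr (fun w => by rw [e])
    intro c
    rcases hrepval c with h | h | h
    · exact ⟨0, by rw [h]; rfl⟩
    · exact ⟨1, by rw [h]; rfl⟩
    · exact ⟨2, by rw [h]; rfl⟩
  have hone : ∀ g x, HasGSH 1 (fun w : List α => evalS f repA {g} w = x) := by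
    intro g x
    by_cases hsg : Perm.sign g = 1
    · obtain ⟨π, -, hπ, hcase⟩ := factConj g hsg
      have hπ' : π * sg⁻¹ * π⁻¹ = sg⁻¹ ∨ π * sg⁻¹ * π⁻¹ = sg := by
        have e : π * sg⁻¹ * π⁻¹ = (π * sg * π⁻¹)⁻¹ := by group
        rcases hπ with h | h
        · left; rw [e, h]
        · right; rw [e, h, inv_inv]
      have hprod : ∀ w : List α,
          (w.map (fun c => π * (if f c ∈ ({g} : Finset (Perm (Fin 4))) then f c
            else repA (f c)) * π⁻¹)).prod = π * evalS f repA {g} w * π⁻¹ :=
        fun w => prod_conj π _ w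
      have hiff : ∀ w : List α, evalS f repA {g} w = x ↔
          (w.map (fun c => π * (if f c ∈ ({g} : Finset (Perm (Fin 4))) then f c
            else repA (f c)) * π⁻¹)).prod = π * x * π⁻¹ := by
        intro w
        rw [hprod]
        constructor
        · intro h; rw [h]
        · intro h
          exact mul_left_cancel (mul_right_cancel h)
      have hval : ∀ c, (π * (if f c ∈ ({g} : Finset (Perm (Fin 4))) then f c
            else repA (f c)) * π⁻¹ = 1) ∨
          (π * (if f c ∈ ({g} : Finset (Perm (Fin 4))) then f c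
            else repA (f c)) * π⁻¹ = sg) ∨
          (π * (if f c ∈ ({g} : Finset (Perm (Fin 4))) then f c
            else repA (f c)) * π⁻¹ = sg⁻¹) ∨
          (π * (if f c ∈ ({g} : Finset (Perm (Fin 4))) then f c
            else repA (f c)) * π⁻¹ = π * g * π⁻¹) := by
        intro c
        by_cases hc : f c = g
        · right; right; right
          simp [hc]
        · have e : (if f c ∈ ({g} : Finset (Perm (Fin 4))) then f c else repA (f c))
              = repA (f c) := by simp [hc]
          rw [e]
          rcases hrepval c with h | h | h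
          · left; rw [h]; group
          · rw [h]
            rcases hπ with h' | h'
            · right; left; exact h'
            · right; right; left; exact h'
          · rw [h]
            rcases hπ' with h' | h'
            · right; right; left; exact h'
            · right; left; exact h'
      rcases hcase with ⟨k, hk⟩ | ⟨k, hk⟩
      · refine (langA _ ?_ (π * x * π⁻¹)).congr (fun w => (hiff w).symm)
        intro c
        rcases hval c with h | h | h | h
        · exact ⟨0, by rw [h]; rfl⟩
        · exact ⟨1, by rw [h]; rfl⟩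
        · exact ⟨2, by rw [h]; rfl⟩
        · exact ⟨k, by rw [h, hk]⟩
      · refine (langB _ ?_ (π * x * π⁻¹)).congr (fun w => (hiff w).symm)
        intro c
        rcases hval c with h | h | h | h
        · exact ⟨0, by rw [h]; rfl⟩
        · exact ⟨1, by rw [h]; rfl⟩
        · exact ⟨2, by rw [h]; rfl⟩
        · exact ⟨k, by rw [h, hk]⟩
    · have e : ∀ w : List α, evalS f repA {g} w = evalS f repA ∅ w := by
        intro w
        unfold evalS
        congr 1
        apply List.map_congr_left
        intro c _
        have hc : f c ≠ g := fun h => hsg (h ▸ hf c)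
        simp [hc]
      exact (hzero x).congr (fun w => by rw [e])
  have hmain := reduce_main NV NV_one NV_mul NV_conj NV_comm f repA rep_NV hone hzero
    Finset.univ x
  exact hmain.congr (fun w => by rw [evalS_univ])

end Vale.Agent.Helper10
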